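import Vale.Agent.P284.H730.CY.Spec
import Vale.Agent.P272.K.EST.Main
import Vale.Agent.P272.K.IE.Final
import Vale.Agent.P272.K.C3.Calabi

/-!
# P284, theorem CY, row E (helper953): uniform interior `C^{2,β}` estimate on the covering
-/

open scoped Manifold ContDiff Topology NNReal ComplexOrder
open Filter Set Metric MeasureTheory

set_option maxSynthPendingDepth 3

noncomputable section

namespace Vale.Agent.P284.H953.CY

open Vale.Agent.P272.K Vale.Agent.P272.K.N Vale.Agent.P272.K.EST Vale.Agent.P284.H248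
  Vale.Agent.P284.H894 Vale.Agent.P284.H894.G Vale.Agent.P284.H894.V Vale.Agent.P284.H409.K
  Vale.Agent.P284.H730.CY

section loc

variable {n : ℕ}

/-- the entries of the Levi matrix as continuous linear maps -/
def levE (j k : Fin n) : Bil n →L[ℝ] ℂ :=
  LinearMap.toContinuousLinearMap
    { toFun := fun B => lev B j k
      map_add' := fun B C => by rw [lev_add]; rfl
      map_smul' := fun c B => by rw [lev_smul]; simp }

lemma levE_apply (j k : Fin n) (B : Bil n) : levE j k B = lev B j k := rfl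

lemma levE_le (i j : Fin n) : ‖levE i j‖ ≤ ∑ i : Fin n, ∑ j : Fin n, ‖levE i j‖ :=
  calc ‖levE i j‖ ≤ ∑ j : Fin n, ‖levE i j‖ :=
        Finset.single_le_sum (f := fun j => ‖levE i j‖) (fun _ _ => norm_nonneg _)
          (Finset.mem_univ j)
    _ ≤ _ := Finset.single_le_sum (f := fun i => ∑ j : Fin n, ‖levE i j‖)
          (fun _ _ => Finset.sum_nonneg fun _ _ => norm_nonneg _) (Finset.mem_univ i)

lemma norm_dz_le (g : Cm n → ℂ) (z : Cm n) (k : Fin n) : ‖dz k g z‖ ≤ ‖fderiv ℝ g z‖ := by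
  have h1 : ‖fderiv ℝ g z (Pi.single k 1)‖ ≤ ‖fderiv ℝ g z‖ := by
    refine ((fderiv ℝ g z).le_opNorm _).trans ?_
    rw [Pi.norm_single, norm_one, mul_one]
  have h2 : ‖fderiv ℝ g z (Pi.single k Complex.I)‖ ≤ ‖fderiv ℝ g z‖ := by
    refine ((fderiv ℝ g z).le_opNorm _).trans ?_
    rw [Pi.norm_single, Complex.norm_I, mul_one]
  unfold dz
  rw [norm_div, Complex.norm_ofNat]
  have h3 := norm_sub_le (fderiv ℝ g z (Pi.single k 1)) (Complex.I * fderiv ℝ g z (Pi.single k Complex.I))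
  rw [norm_mul, Complex.norm_I, one_mul] at h3
  rw [div_le_iff₀ (by norm_num)]
  linarith

/-- bound of the entries of the complex Hessian by the second derivative -/
lemma exists_cHess_le (n : ℕ) : ∃ c : ℝ, 0 ≤ c ∧ ∀ (f : Cm n → ℝ) (z : Cm n), ContDiffAt ℝ ∞ f z →
    (∀ i j, ‖cHess f z i j‖ ≤ c * ‖iteratedFDeriv ℝ 2 f z‖) ∧
    ∀ i j k, ‖dz k (fun y => cHess f y i j) z‖ ≤ c * ‖iteratedFDeriv ℝ 3 f z‖ := by
  classical
  refine ⟨∑ i : Fin n, ∑ j : Fin n, ‖levE i j‖, by positivity, fun f z hf => ⟨fun i j => ?_,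
    fun i j k => ?_⟩⟩
  · have h1 : DifferentiableAt ℝ (fderiv ℝ f) z :=
      (hf.fderiv_right (m := 1) (by norm_cast)).differentiableAt (by simp)
    rw [cHess_eq_lev h1, ← levE_apply]
    have h2 : ‖fderiv ℝ (fderiv ℝ f) z‖ = ‖iteratedFDeriv ℝ 2 f z‖ := by
      rw [← norm_iteratedFDeriv_one, norm_iteratedFDeriv_fderiv]
    rw [← h2]
    exact ((levE i j).le_opNorm _).trans (mul_le_mul_of_nonneg_right (levE_le i j)
      (norm_nonneg _))
  · have h0 : ∀ᶠ y in 𝓝 z, ContDiffAt ℝ 2 f y :=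
      ((hf.of_le (by norm_cast) : ContDiffAt ℝ 2 f z)).eventually (by simp)
    have h1 : (fun y => cHess f y i j) =ᶠ[𝓝 z] fun y => levE i j (fderiv ℝ (fderiv ℝ f) y) := by
      filter_upwards [h0] with y hy
      rw [cHess_eq_lev ((hy.fderiv_right (m := 1) (by norm_num)).differentiableAt (by simp)),
        levE_apply]
    have h2 : DifferentiableAt ℝ (fderiv ℝ (fderiv ℝ f)) z :=
      ((hf.fderiv_right (m := 2) (by norm_cast)).fderiv_right (m := 1)
        (by norm_num)).differentiableAt (by simp)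
    have h3 : fderiv ℝ (fun y => cHess f y i j) z =
        (levE i j).comp (fderiv ℝ (fderiv ℝ (fderiv ℝ f)) z) := by
      rw [h1.fderiv_eq]
      exact ((levE i j).hasFDerivAt.comp z h2.hasFDerivAt).fderiv
    have h4 : ‖fderiv ℝ (fderiv ℝ (fderiv ℝ f)) z‖ = ‖iteratedFDeriv ℝ 3 f z‖ := by
      rw [← norm_iteratedFDeriv_one, norm_iteratedFDeriv_fderiv, norm_iteratedFDeriv_fderiv]
    refine (norm_dz_le _ _ _).trans ?_
    rw [h3, ← h4]
    exact ((levE i j).opNorm_comp_le _).trans (mul_le_mul_of_nonneg_right (levE_le i j)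
      (norm_nonneg _))

/-- uniform ellipticity on compact sets -/
lemma ellip {U : Set (Cm n)} {w : Cm n → Matrix (Fin n) (Fin n) ℂ} (hw : KU U w)
    {Q : Set (Cm n)} (hQ : IsCompact Q) (hQU : Q ⊆ U) {B : ℝ} (hB : 0 < B) :
    ∃ lam Lam : ℝ, 0 < lam ∧ ∀ K : Cm n → Matrix (Fin n) (Fin n) ℂ, (∀ z ∈ U, (K z).PosDef) →
      (∀ z ∈ U, ((B : ℂ) • K z - w z).PosSemidef) →
      (∀ z ∈ U, ((B : ℂ) • w z - K z).PosSemidef) →
      ∀ z ∈ Q, (K z - (lam : ℂ) • (1 : Matrix (Fin n) (Fin n) ℂ)).PosSemidef ∧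
        ((Lam : ℂ) • (1 : Matrix (Fin n) (Fin n) ℂ) - K z).PosSemidef := by
  have hc : ∀ i j, ContinuousOn (fun z => w z i j) Q := fun i j z hz =>
    (hw.smooth z (hQU hz) i j).continuousAt.continuousWithinAt
  obtain ⟨C1, hC1, h1⟩ := exists_quad_lower hQ (fun z => w z)
    (fun _ => (1 : Matrix (Fin n) (Fin n) ℂ)) hc (fun i j => continuousOn_const)
    (fun z hz => hw.pos z (hQU hz))
  obtain ⟨C2, hC2, h2⟩ := exists_quad_lower hQ (fun _ => (1 : Matrix (Fin n) (Fin n) ℂ))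
    (fun z => w z) (fun i j => continuousOn_const) hc (fun z hz => Matrix.PosDef.one)
  refine ⟨1 / (B * C1), B * C2, by positivity, fun K hp hl hu z hz => ?_⟩
  have hKz := (hp z (hQU hz)).isHermitian
  have hwz := (hw.pos z (hQU hz)).isHermitian
  have a1 := quad_nonneg (hl z (hQU hz))
  have a2 := quad_nonneg (hu z (hQU hz))
  constructor
  · have : (K z - ((1 / (B * C1) : ℝ) : ℂ) • (1 : Matrix (Fin n) (Fin n) ℂ)) =
        (((1 : ℝ) : ℂ) • K z - ((1 / (B * C1) : ℝ) : ℂ) •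
          (1 : Matrix (Fin n) (Fin n) ℂ)) := by simp
    rw [this, posSemidef_smul_sub_iff hKz one_isHermitian]
    intro ξ
    have b1 := a1 ξ
    rw [quad_sub, quad_smulM, Complex.sub_re, Complex.re_ofReal_mul] at b1
    have b2 := h1 z hz ξ
    rw [one_mul, div_mul_eq_mul_div, one_mul, div_le_iff₀ (by positivity)]
    calc (quad 1 ξ).re ≤ C1 * (quad (w z) ξ).re := b2
      _ ≤ C1 * (B * (quad (K z) ξ).re) := by
          refine mul_le_mul_of_nonneg_left ?_ hC1.le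
          linarith
      _ = _ := by ring
  · have : (((B * C2 : ℝ) : ℂ) • (1 : Matrix (Fin n) (Fin n) ℂ) - K z) =
        (((B * C2 : ℝ) : ℂ) • (1 : Matrix (Fin n) (Fin n) ℂ) - ((1 : ℝ) : ℂ) • K z) := by
      simp
    rw [this, posSemidef_smul_sub_iff one_isHermitian hKz]
    intro ξ
    have b1 := a2 ξ
    rw [quad_sub, quad_smulM, Complex.sub_re, Complex.re_ofReal_mul] at b1
    have b2 := h2 z hz ξ
    rw [one_mul]
    calc (quad (K z) ξ).re ≤ B * (quad (w z) ξ).re := by linarith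
      _ ≤ B * (C2 * (quad 1 ξ).re) := mul_le_mul_of_nonneg_left b2 hB.le
      _ = _ := by ring

lemma smooth_logdet' {U : Set (Cm n)} {w : Cm n → Matrix (Fin n) (Fin n) ℂ} (hw : KU U w)
    {z : Cm n} (hz : z ∈ U) : ContDiffAt ℝ ∞ (fun y => Real.log (w y).det.re) z := by
  have h1 : ContDiffAt ℝ ∞ (fun y => (w y).det.re) z :=
    contDiffAt_re (contDiffAt_det fun i j => hw.smooth z hz i j)
  have h2 : 0 < (w z).det.re := (Complex.pos_iff.1 (hw.pos z hz).det_pos).1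
  exact h1.log h2.ne'

/-- the twisting term in the Ricci equation of a solution -/
def Tw (w : Cm n → Matrix (Fin n) (Fin n) ℂ) (F : Cm n → ℝ) (s : ℝ) (z : Cm n) :
    Matrix (Fin n) (Fin n) ℂ :=
  (cHess (fun y => Real.log (w y).det.re) z - w z) + (s : ℂ) • cHess F z

lemma ricci {U : Set (Cm n)} {w : Cm n → Matrix (Fin n) (Fin n) ℂ} (hw : KU U w)
    {F φ : Cm n → ℝ} {s : ℝ} (hF : ∀ z ∈ U, ContDiffAt ℝ ∞ F z)
    (hφ : ∀ z ∈ U, ContDiffAt ℝ ∞ φ z)
    (heq : ∀ z ∈ U, Real.log (w z + cHess φ z).det.re - Real.log (w z).det.re = φ z + s * F z)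
    {z : Cm n} (hz : z ∈ U) : cHess (fun y => Real.log (w y + cHess φ y).det.re) z =
      (w z + cHess φ z) + Tw w F s z := by
  have h1 : (fun y => Real.log (w y + cHess φ y).det.re) =ᶠ[𝓝 z] fun y =>
      Real.log (w y).det.re + (φ y + s * F y) := by
    filter_upwards [hw.isOpen.mem_nhds hz] with y hy
    linarith [heq y hy]
  have c2 : ∀ {f : Cm n → ℝ}, ContDiffAt ℝ ∞ f z → ContDiffAt ℝ 2 f z := fun hf =>
    hf.of_le (by norm_cast)
  have hL := smooth_logdet' hw hz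
  rw [cHess_congr h1, cHess_add (c2 hL) ((c2 (hφ z hz)).add (contDiffAt_const.mul (c2 (hF z hz)))),
    cHess_add (c2 (hφ z hz)) (contDiffAt_const.mul (c2 (hF z hz))),
    cHess_const_mul s (c2 (hF z hz))]
  unfold Tw
  abel

/-- a bound for the twisting term and its first derivatives -/
lemma exists_Tw_bound {U : Set (Cm n)} {w : Cm n → Matrix (Fin n) (Fin n) ℂ} (hw : KU U w)
    {Q : Set (Cm n)} (hQ : IsCompact Q) (hQU : Q ⊆ U) {B : ℝ} (hB : 0 ≤ B) :
    ∃ C₀ : ℝ, 0 ≤ C₀ ∧ ∀ s ∈ Set.Icc (0 : ℝ) 1, ∀ F : Cm n → ℝ,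
      (∀ z ∈ U, ContDiffAt ℝ ∞ F z) → (∀ z ∈ Q, ∀ i j, ‖cHess F z i j‖ ≤ B) →
      (∀ z ∈ Q, ∀ i j k, ‖dz k (fun y => cHess F y i j) z‖ ≤ B) →
      (∀ z ∈ Q, ∀ i j, ContDiffAt ℝ ∞ (fun y => Tw w F s y i j) z) ∧
      (∀ z ∈ Q, ∀ i j, ‖Tw w F s z i j‖ ≤ C₀) ∧
      (∀ z ∈ Q, ∀ i j k, ‖dz k (fun y => Tw w F s y i j) z‖ ≤ C₀) := by
  have s0 : ∀ z ∈ U, ∀ i j, ContDiffAt ℝ ∞
      (fun y => cHess (fun y => Real.log (w y).det.re) y i j - w y i j) z := fun z hz i j =>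
    (smooth_cHess (smooth_logdet' hw hz) i j).sub (hw.smooth z hz i j)
  obtain ⟨A0, hA0, hA⟩ := exists_common_bound hQ
    (fun (p : Fin n × Fin n) z => cHess (fun y => Real.log (w y).det.re) z p.1 p.2 - w z p.1 p.2)
    (fun p z hz => (s0 z (hQU hz) p.1 p.2).continuousAt.continuousWithinAt)
  obtain ⟨A1, hA1, hA'⟩ := exists_common_bound hQ
    (fun (p : (Fin n × Fin n) × Fin n) z =>
      dz p.2 (fun y => cHess (fun y => Real.log (w y).det.re) y p.1.1 p.1.2 - w y p.1.1 p.1.2) z)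
    (fun p z hz => (smooth_dz (s0 z (hQU hz) p.1.1 p.1.2) p.2).continuousAt.continuousWithinAt)
  refine ⟨(A0 + B) + (A1 + B), by positivity, fun s hs F hF hB0 hB1 => ?_⟩
  have s1 : ∀ z ∈ U, ∀ i j, ContDiffAt ℝ ∞ (fun y => cHess F y i j) z := fun z hz i j =>
    smooth_cHess (hF z hz) i j
  have hent : ∀ i j y, Tw w F s y i j =
      (cHess (fun y => Real.log (w y).det.re) y i j - w y i j) +
        (s : ℂ) * cHess F y i j := by
    intro i j y
    simp only [Tw, Matrix.add_apply, Matrix.sub_apply, Matrix.smul_apply, smul_eq_mul]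
  have hsm : ∀ x : ℂ, ‖x‖ ≤ B → ‖(s : ℂ) * x‖ ≤ B := by
    intro x hx
    rw [norm_mul, Complex.norm_real, Real.norm_eq_abs, abs_of_nonneg hs.1]
    calc s * ‖x‖ ≤ 1 * ‖x‖ := mul_le_mul_of_nonneg_right hs.2 (norm_nonneg _)
      _ ≤ B := by rw [one_mul]; exact hx
  refine ⟨?_, ?_, ?_⟩
  · intro z hz i j
    simp only [hent]
    exact (s0 z (hQU hz) i j).add (contDiffAt_const.mul (s1 z (hQU hz) i j))
  · intro z hz i j
    rw [hent]
    have h1 := hA (i, j) z hz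
    simp only at h1
    exact (norm_add_le _ _).trans (by linarith [hsm _ (hB0 z hz i j)])
  · intro z hz i j k
    simp only [hent]
    have e1 : DifferentiableAt ℝ (fun y => (s : ℂ) * cHess F y i j) z :=
      (diffble_of_smooth (s1 z (hQU hz) i j)).const_mul _
    have e2 := dz_add (i := k) (diffble_of_smooth (s0 z (hQU hz) i j)) e1
    have e3 := dz_const_mul (i := k) (s : ℂ) (diffble_of_smooth (s1 z (hQU hz) i j))
    rw [e2, e3]
    have h1 := hA' ((i, j), k) z hz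
    simp only at h1
    exact (norm_add_le _ _).trans (by linarith [hsm _ (hB1 z hz i j k)])

/-- **The local estimate.** -/
theorem loc_est {U : Set (Cm n)} {w : Cm n → Matrix (Fin n) (Fin n) ℂ} (hw : KU U w)
    (p : Cm n) {R R' : ℝ} (hR : 0 < R) (hRR : R < R') (hU : closedBall p R' ⊆ U) {β : ℝ}
    (hβ0 : 0 < β) (hβ1 : β < 1) (A : ℝ) {B BF : ℝ} (hB : 0 < B) (hBF : 0 ≤ BF) :
    ∃ M : ℝ, 0 ≤ M ∧ ∀ s ∈ Set.Icc (0 : ℝ) 1, ∀ F φ : Cm n → ℝ, (∀ z ∈ U, ContDiffAt ℝ ∞ F z) →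
      (∀ z ∈ U, ContDiffAt ℝ ∞ φ z) → (∀ z ∈ U, |φ z| ≤ A) →
      (∀ z ∈ U, (w z + cHess φ z).PosDef) →
      (∀ z ∈ U, Real.log (w z + cHess φ z).det.re - Real.log (w z).det.re = φ z + s * F z) →
      (∀ z ∈ U, ((B : ℂ) • w z - (w z + cHess φ z)).PosSemidef) →
      (∀ z ∈ U, ((B : ℂ) • (w z + cHess φ z) - w z).PosSemidef) →
      (∀ z ∈ closedBall p R', ∀ i j, ‖cHess F z i j‖ ≤ BF) →
      (∀ z ∈ closedBall p R', ∀ i j k, ‖dz k (fun y => cHess F y i j) z‖ ≤ BF) →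
      ∀ y ∈ closedBall p R, ∀ y' ∈ closedBall p R,
        ‖fderiv ℝ (fderiv ℝ φ) y - fderiv ℝ (fderiv ℝ φ) y'‖ ≤ M * ‖y - y'‖ ^ β := by
  obtain ⟨δ, hδ, rfl⟩ : ∃ δ : ℝ, 0 < δ ∧ R' = δ + R := ⟨R' - R, by linarith, by ring⟩
  have hK : IsCompact (closedBall p (δ + R)) := isCompact_closedBall _ _
  obtain ⟨lam, Lam, hlam, hell⟩ := ellip hw hK hU hB
  obtain ⟨C₀, hC₀, hTh⟩ := exists_Tw_bound hw hK hU hBF
  obtain ⟨C3, hC3'⟩ := C3.calabi n p (2 * δ / 3 + R) (δ + R) lam Lam C₀ (by positivity)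
    (by linarith) hlam
  obtain ⟨A0, hA0, hA⟩ := exists_common_bound hK
    (fun (p : Fin n × Fin n) z => w z p.1 p.2)
    (fun p z hz => (hw.smooth z (hU hz) p.1 p.2).continuousAt.continuousWithinAt)
  obtain ⟨A1, hA1, hA'⟩ := exists_common_bound hK
    (fun (p : (Fin n × Fin n) × Fin n) z => dz p.2 (fun y => w y p.1.1 p.1.2) z)
    (fun p z hz => (smooth_dz (hw.smooth z (hU hz) p.1.1 p.1.2)
      p.2).continuousAt.continuousWithinAt)
  set M : ℝ := |A| + (2 * |Lam| + A0) + (|C3| + A1) with hM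
  obtain ⟨CI, hCI⟩ := IE.ie n p (δ / 3 + R) (2 * δ / 3 + R) β M (by positivity) (by linarith)
    hβ0 hβ1
  refine ⟨|CI|, abs_nonneg _, fun s hs F φ hF hφ hφA hpos heq hup hlo hB0 hB1 y hy y' hy' => ?_⟩
  have hb3 : ball p (δ + R) ⊆ closedBall p (δ + R) := ball_subset_closedBall
  have hE := hell (fun z => w z + cHess φ z) hpos hlo hup
  obtain ⟨t1, t2, t3⟩ := hTh s hs F hF hB0 hB1
  have hcal := hC3' (fun z => w z + cHess φ z) (fun z => Tw w F s z)
    (fun z hz i j => (hw.smooth z (hU (hb3 hz)) i j).add (smooth_cHess (hφ z (hU (hb3 hz))) i j))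
    (fun z hz => (hpos z (hU (hb3 hz))).isHermitian)
    (fun z hz => (hE z (hb3 hz)).1) (fun z hz => (hE z (hb3 hz)).2)
    (fun z hz i j k => by
      have hz' := hU (hb3 hz)
      have h1 : ∀ i j k, dz k (fun y => (w y + cHess φ y) i j) z =
          dz k (fun y => w y i j) z + dz k (fun y => cHess φ y i j) z := fun i j k =>
        dz_add (diffble_of_smooth (hw.smooth z hz' i j))
          (diffble_of_smooth (smooth_cHess (hφ z hz') i j))
      rw [h1, h1, hw.closed z hz' i j k, cHess_closed (hφ z hz')])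
    (fun z hz => ricci hw hF hφ heq (hU (hb3 hz)))
    (fun z hz i j => t1 z (hb3 hz) i j) (fun z hz i j => t2 z (hb3 hz) i j)
    (fun z hz i j k => t3 z (hb3 hz) i j k)
  have hb2 : ball p (2 * δ / 3 + R) ⊆ closedBall p (2 * δ / 3 + R) := ball_subset_closedBall
  have hb23 : closedBall p (2 * δ / 3 + R) ⊆ closedBall p (δ + R) :=
    closedBall_subset_closedBall (by linarith)
  have hdz : ∀ z ∈ ball p (2 * δ / 3 + R), ∀ i j k,
      ‖dz k (fun y => cHess φ y i j) z‖ ≤ M := by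
    intro z hz i j k
    have hzt : z ∈ U := hU (hb23 (hb2 hz))
    have h1 := hcal z (hb2 hz) i j k
    have h2 : dz k (fun y => (w y + cHess φ y) i j) z = dz k (fun y => w y i j) z +
        dz k (fun y => cHess φ y i j) z :=
      dz_add (diffble_of_smooth (hw.smooth z hzt i j))
        (diffble_of_smooth (smooth_cHess (hφ z hzt) i j))
    have h3 := hA' ((i, j), k) z (hb23 (hb2 hz))
    simp only at h3
    have h4 : dz k (fun y => cHess φ y i j) z =
        dz k (fun y => (w y + cHess φ y) i j) z - dz k (fun y => w y i j) z := by rw [h2]; ring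
    rw [h4]
    refine (norm_sub_le _ _).trans ?_
    have h5 := le_abs_self C3
    have h6 := abs_nonneg A
    have h7 := abs_nonneg Lam
    rw [hM]
    linarith
  refine (hCI φ (fun z hz => hφ z (hU (hb23 (hb2 hz)))) ?_ ?_ hdz ?_ y
    (closedBall_subset_closedBall (by linarith) hy) y'
    (closedBall_subset_closedBall (by linarith) hy')).trans
    (mul_le_mul_of_nonneg_right (le_abs_self _) (by positivity))
  · intro z hz
    have h1 := hφA z (hU (hb23 (hb2 hz)))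
    have h2 := le_abs_self A
    have h7 := abs_nonneg Lam
    have h8 := abs_nonneg C3
    rw [hM]
    linarith
  · intro z hz i j
    have h1 := entry_le (hpos z (hU (hb23 (hb2 hz)))).posSemidef (hE z (hb23 (hb2 hz))).2 i j
    have h3 := hA (i, j) z (hb23 (hb2 hz))
    simp only at h3
    have h4 : cHess φ z i j = (w z + cHess φ z) i j - w z i j := by
      simp only [Matrix.add_apply]; ring
    rw [h4]
    refine (norm_sub_le _ _).trans ?_
    have h5 := le_abs_self Lam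
    have h6 := abs_nonneg A
    have h8 := abs_nonneg C3
    rw [hM]
    linarith
  · intro z hz i j k
    rw [dzb_cHess (hφ z (hU (hb23 (hb2 hz)))) i j k, RCLike.norm_conj]
    exact hdz z hz j i k

end loc

/-- a function bounded with all derivatives is bounded on the big balls -/
lemma fb_bdd {n : ℕ} {Γ : Type} [Group Γ] {C : Coc n Γ} {F : Γ → C.I → Cm n → ℝ} (hF : FB C F) :
    ∃ A : ℝ, 0 ≤ A ∧ ∀ γ a, ∀ z ∈ C.Ω a, |F γ a z| ≤ A := by
  classical
  have h1 : ∀ b : C.I, ∃ B : ℝ, ∀ γ, ∀ z ∈ closedBall (C.c b) (C.r b),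
      ‖iteratedFDeriv ℝ 0 (F γ b) z‖ ≤ B := fun b =>
    hF.bd b (C.r b) (by linarith [C.r_pos b]) 0
  choose B hB using h1
  refine ⟨∑ b, |B b|, Finset.sum_nonneg fun i _ => abs_nonneg _, fun γ a z hz => ?_⟩
  obtain ⟨b, h1, h2⟩ := C.cover a z hz
  rw [hF.compat γ a b z h1]
  have h3 := hB b (γ * C.κ a b z) (C.T a b z) (ball_subset_closedBall h2)
  rw [norm_iteratedFDeriv_zero, Real.norm_eq_abs] at h3
  exact (h3.trans (le_abs_self _)).trans
    (Finset.single_le_sum (f := fun i => |B i|) (fun i _ => abs_nonneg _) (Finset.mem_univ b))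

/-- **E** -/
theorem eStmt : Vale.Agent.P284.H730.CY.EStmt := by
  classical
  intro hM0 hM2 n Γ _ C K F hF β hβ0 hβ1
  obtain ⟨A, hA0, hA⟩ := fb_bdd hF
  obtain ⟨B, hB1, hB⟩ := hM2 n Γ C K F hF A
  obtain ⟨c, hc0, hc⟩ := exists_cHess_le n
  have hloc : ∀ a : C.I, ∃ M : ℝ, 0 ≤ M ∧ ∀ s ∈ Icc (0 : ℝ) 1, ∀ φ,
      MAF C K (fun γ a z => s * F γ a z) φ → Bd C K φ → ∀ γ,
      ∀ y ∈ closedBall (C.c a) (7 / 2 * C.r a), ∀ y' ∈ closedBall (C.c a) (7 / 2 * C.r a),
      ‖fderiv ℝ (fderiv ℝ (φ γ a)) y - fderiv ℝ (fderiv ℝ (φ γ a)) y'‖ ≤ M * ‖y - y'‖ ^ β := by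
    intro a
    have hr := C.r_pos a
    obtain ⟨B2, hB2⟩ := hF.bd a (15 / 4 * C.r a) (by linarith) 2
    obtain ⟨B3, hB3⟩ := hF.bd a (15 / 4 * C.r a) (by linarith) 3
    have hsub : closedBall (C.c a) (15 / 4 * C.r a) ⊆ C.Ω a :=
      closedBall_subset_ball (by linarith)
    obtain ⟨M, hM, hMM⟩ := loc_est (K.ku a) (C.c a) (R := 7 / 2 * C.r a) (R' := 15 / 4 * C.r a)
      (by positivity) (by linarith) hsub hβ0 hβ1 A (B := B) (BF := c * |B2| + c * |B3|)
      (by linarith) (by positivity)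
    refine ⟨M, hM, fun s hs φ hφ hbd γ => ?_⟩
    have hφA : ∀ γ a, ∀ z ∈ C.Ω a, |φ γ a z| ≤ A := by
      refine hM0.bound n Γ C K _ φ hφ hbd A fun γ a z hz => ?_
      rw [abs_mul, abs_of_nonneg hs.1]
      calc s * |F γ a z| ≤ 1 * |F γ a z| := mul_le_mul_of_nonneg_right hs.2 (abs_nonneg _)
        _ ≤ A := by rw [one_mul]; exact hA γ a z hz
    have hBB := hB s hs φ hφ hbd hφA
    refine hMM s hs (F γ a) (φ γ a) (fun z hz => hF.smooth γ a z hz)
      (fun z hz => hφ.smooth γ a z hz) (fun z hz => hφA γ a z hz) (fun z hz => hφ.pos γ a z hz)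
      (fun z hz => hφ.eq γ a z hz) (fun z hz => (hBB γ a z hz).1) (fun z hz => (hBB γ a z hz).2)
      (fun z hz i j => ?_) (fun z hz i j k => ?_)
    · have h1 := (hc (F γ a) z (hF.smooth γ a z (hsub hz))).1 i j
      have h2 := (hB2 γ z hz).trans (le_abs_self _)
      have h3 := mul_le_mul_of_nonneg_left h2 hc0
      have h4 : 0 ≤ c * |B3| := by positivity
      linarith
    · have h1 := (hc (F γ a) z (hF.smooth γ a z (hsub hz))).2 i j k
      have h2 := (hB3 γ z hz).trans (le_abs_self _)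
      have h3 := mul_le_mul_of_nonneg_left h2 hc0
      have h4 : 0 ≤ c * |B2| := by positivity
      linarith
  choose M hM hMM using hloc
  refine ⟨∑ a, M a, fun s hs φ hφ hbd γ a y hy y' hy' => ?_⟩
  refine (hMM a s hs φ hφ hbd γ y hy y' hy').trans (mul_le_mul_of_nonneg_right ?_ (by positivity))
  exact Finset.single_le_sum (f := M) (fun i _ => hM i) (Finset.mem_univ a)

end Vale.Agent.P284.H953.CY
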